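import Vale.Agent.P181.H382.H112.Defs
import Vale.Agent.P181.PL.Basic
import Vale.Agent.P181.H530.Zero

set_option autoImplicit false

/-!
# P181, LS [S5]: `TwoLongS → NearAll → PolyS → RhoAll`
-/

namespace Vale.Agent.P181.H382.H694

open Filter
open Vale.Agent.P181
open Vale.Agent.P181.T4 (ex)
open Vale.Agent.P181.H280 (plethMult)
open Vale.Agent.P181.PL (dn exlt exge exfin exanti dn_succ PolyS)
open Vale.Agent.P181.TL (dn2)
open Vale.Agent.P181.H382.H112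

/-- A power of `1 + log a` is small. -/
theorem ev_log (M : ℝ) (p : ℕ) : ∃ a₀ : ℕ, ∀ a : ℕ, a₀ ≤ a → M * (1 + Real.log a) ^ p ≤ a := by
  have h1 : ∀ᶠ x : ℝ in atTop, ‖Real.log x ^ p‖ ≤ 1 / ((|M| + 1) * 2 ^ p) * ‖id x‖ :=
    (Real.isLittleO_pow_log_id_atTop (n := p)).bound (by positivity)
  have h2 : ∀ᶠ x : ℝ in atTop, 1 ≤ Real.log x := Real.tendsto_log_atTop.eventually_ge_atTop 1
  have h3 : ∀ᶠ x : ℝ in atTop, M * (1 + Real.log x) ^ p ≤ x := by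
    filter_upwards [h1, h2, eventually_ge_atTop (0 : ℝ)] with x hx1 hx2 hx0
    rw [Real.norm_of_nonneg (by positivity), id, Real.norm_of_nonneg hx0] at hx1
    have h5 : (1 + Real.log x) ^ p ≤ (2 * Real.log x) ^ p :=
      pow_le_pow_left₀ (by linarith) (by linarith) _
    have h6 : (0 : ℝ) < (|M| + 1) * 2 ^ p := by positivity
    calc M * (1 + Real.log x) ^ p ≤ (|M| + 1) * (1 + Real.log x) ^ p :=
          mul_le_mul_of_nonneg_right (by linarith [le_abs_self M]) (by positivity)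
      _ ≤ (|M| + 1) * (2 * Real.log x) ^ p := mul_le_mul_of_nonneg_left h5 (by positivity)
      _ = ((|M| + 1) * 2 ^ p) * Real.log x ^ p := by rw [mul_pow]; ring
      _ ≤ ((|M| + 1) * 2 ^ p) * (1 / ((|M| + 1) * 2 ^ p) * x) :=
          mul_le_mul_of_nonneg_left hx1 h6.le
      _ = x := by rw [← mul_assoc, mul_one_div_cancel h6.ne', one_mul]
  have h4 := tendsto_natCast_atTop_atTop.eventually h3
  obtain ⟨a₀, ha₀⟩ := eventually_atTop.1 h4
  exact ⟨a₀, ha₀⟩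

lemma dn_le_sum {n : ℕ} (lam : Fin n → ℕ) (j : ℕ) : dn lam j ≤ ∑ i, lam i := by
  unfold dn
  apply Finset.sum_le_sum
  intro i _
  split_ifs
  · exact le_rfl
  · exact Nat.zero_le _

lemma dn2_eq {k : ℕ} (lam : Fin (k + 2) → ℕ) : dn2 lam = dn lam 2 := by
  unfold dn2 dn
  rw [Fin.sum_univ_succ, Fin.sum_univ_succ]
  simp

lemma dn_small {n : ℕ} (lam : Fin n → ℕ) (hn : n ≤ 2) : dn lam 2 = 0 := by
  unfold dn
  apply Finset.sum_eq_zero
  intro i _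
  rw [if_neg]
  have := i.2
  omega

/-- The numbers: `x = λ_2`, `D = D_2`. -/
lemma nums {a b x D Q P C C4 Λ : ℝ} (c : ℕ) (ha : 1 ≤ a) (hab : a ≤ b) (hx : 0 ≤ x)
    (hD : 0 ≤ D) (hDQ : D < Q * a) (hbP : b < P * a) (hC4 : 1 ≤ C4) (hC : C4 + 1 ≤ C)
    (hΛ : 1 ≤ Λ) (hQΛ : Q ≤ Λ) (hPΛ : P ≤ Λ) (hbig : C4 * Λ ^ (c + 2) ≤ a)
    (h : C * b ^ 3 ≤ (x + D) * D) :
    C4 * Λ ^ c ≤ a ∧ b ≤ Λ * a ∧ a ^ 2 ≤ Λ * x ∧ C4 * b ^ 3 ≤ x * D ∧ C4 * Λ ^ c * D ≤ a ^ 2 := by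
  have ha0 : 0 < a := by linarith
  have hb0 : 0 < b := by linarith
  have hΛ0 : 0 < Λ := by linarith
  have hC40 : 0 < C4 := by linarith
  have hpc : 1 ≤ Λ ^ c := one_le_pow₀ hΛ
  have hDΛ : D ≤ Λ * a := hDQ.le.trans (mul_le_mul_of_nonneg_right hQΛ ha0.le)
  have h2 : Λ ^ 2 ≤ a := by
    refine le_trans ?_ hbig
    have e : C4 * Λ ^ (c + 2) = (C4 * Λ ^ c) * Λ ^ 2 := by ring
    rw [e]
    exact le_mul_of_one_le_left (by positivity) (one_le_mul_of_one_le_of_one_le hC4 hpc)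
  have hD2 : D * D ≤ b ^ 3 := by
    calc D * D ≤ (Λ * a) * (Λ * a) := mul_le_mul hDΛ hDΛ hD (by positivity)
      _ = Λ ^ 2 * a ^ 2 := by ring
      _ ≤ a * a ^ 2 := mul_le_mul_of_nonneg_right h2 (by positivity)
      _ = a ^ 3 := by ring
      _ ≤ b ^ 3 := pow_le_pow_left₀ ha0.le hab 3
  have hb3 : 0 < b ^ 3 := by positivity
  have hxD : C4 * b ^ 3 ≤ x * D := by
    have h3 : (C4 + 1) * b ^ 3 ≤ C * b ^ 3 := mul_le_mul_of_nonneg_right hC hb3.le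
    have h4 : (x + D) * D = x * D + D * D := by ring
    have h5 : (C4 + 1) * b ^ 3 = C4 * b ^ 3 + b ^ 3 := by ring
    linarith
  refine ⟨?_, ?_, ?_, hxD, ?_⟩
  · refine le_trans ?_ hbig
    refine mul_le_mul_of_nonneg_left ?_ hC40.le
    exact pow_le_pow_right₀ hΛ (by omega)
  · exact hbP.le.trans (mul_le_mul_of_nonneg_right hPΛ ha0.le)
  · have h3 : a ^ 3 ≤ C4 * b ^ 3 :=
      (pow_le_pow_left₀ ha0.le hab 3).trans (le_mul_of_one_le_left hb3.le hC4)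
    have h4 : a ^ 2 * a ≤ (Λ * x) * a := by
      calc a ^ 2 * a = a ^ 3 := by ring
        _ ≤ C4 * b ^ 3 := h3
        _ ≤ x * D := hxD
        _ ≤ x * (Λ * a) := mul_le_mul_of_nonneg_left hDΛ hx
        _ = (Λ * x) * a := by ring
    exact le_of_mul_le_mul_right h4 ha0
  · calc C4 * Λ ^ c * D ≤ C4 * Λ ^ c * (Λ * a) :=
          mul_le_mul_of_nonneg_left hDΛ (by positivity)
      _ = C4 * Λ ^ (c + 1) * a := by ring
      _ ≤ C4 * Λ ^ (c + 2) * a := by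
          refine mul_le_mul_of_nonneg_right ?_ ha0.le
          refine mul_le_mul_of_nonneg_left ?_ hC40.le
          exact pow_le_pow_right₀ hΛ (by omega)
      _ ≤ a * a := mul_le_mul_of_nonneg_right hbig ha0.le
      _ = a ^ 2 := by ring

/-- **[S5]** -/
theorem rhoAll (h4 : TwoLongS) (hN : NearAll) (hP : PolyS) : RhoAll := by
  intro δ hδ
  obtain ⟨CP, cP, hCP, hP⟩ := hP
  obtain ⟨CN, cN, hCN, hN⟩ := hN δ hδ
  obtain ⟨C4, c4, hC4, h4⟩ := h4 δ hδ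
  obtain ⟨B, hB⟩ : ∃ B : ℝ, B = CP + CN + 1 := ⟨_, rfl⟩
  have hB1 : 1 ≤ B := by
    rw [hB]
    linarith
  obtain ⟨A, hA⟩ := ev_log (C4 * B ^ (c4 + 2)) ((cP + cN) * (c4 + 2))
  refine ⟨C4 + 1 + (A : ℝ) ^ 2, by positivity, ?_⟩
  intro a b hab n lam hD
  by_cases hz : plethMult a b n lam = 0
  · rw [hz]
    exact Nat.zero_le _
  obtain ⟨hanti, hsum, -⟩ := H530.zero_stmt a b n lam hz
  have ha0 : (0 : ℝ) ≤ a := Nat.cast_nonneg a
  have habR : (a : ℝ) ≤ b := by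
    have : 0 ≤ δ * a := by positivity
    linarith
  have habN : a ≤ b := by exact_mod_cast habR
  rcases Nat.eq_zero_or_pos b with hb | hb
  · obtain rfl : a = b := by omega
    exact le_rfl
  have hbR : (1 : ℝ) ≤ b := by exact_mod_cast hb
  have hb3 : (0 : ℝ) < (b : ℝ) ^ 3 := by positivity
  -- the rows
  have hn : 3 ≤ n := by
    by_contra hn
    have h1 := dn_small lam (by omega)
    rw [h1, Nat.cast_zero, mul_zero] at hD
    have h2 : (0 : ℝ) < (C4 + 1 + (A : ℝ) ^ 2) * (b : ℝ) ^ 3 := by positivity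
    linarith
  -- `a` is large
  have h1 : (dn lam 1 : ℝ) ≤ a * b := by
    have h := dn_le_sum lam 1
    rw [hsum] at h
    exact_mod_cast h
  have h2 : (dn lam 2 : ℝ) ≤ a * b := by
    have h := dn_le_sum lam 2
    rw [hsum] at h
    exact_mod_cast h
  have hAa : A ≤ a := by
    by_contra hlt
    have hlt' : (a : ℝ) ≤ A := by
      have : a ≤ A := by omega
      exact_mod_cast this
    have h3 : (C4 + 1 + (A : ℝ) ^ 2) * (b : ℝ) ^ 3 ≤ ((a : ℝ) * b) * ((a : ℝ) * b) :=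
      hD.trans (mul_le_mul h1 h2 (Nat.cast_nonneg _) (by positivity))
    have h5 : ((C4 + 1 + (A : ℝ) ^ 2) * (b : ℝ)) * (b : ℝ) ^ 2 ≤ (A : ℝ) ^ 2 * (b : ℝ) ^ 2 := by
      calc ((C4 + 1 + (A : ℝ) ^ 2) * (b : ℝ)) * (b : ℝ) ^ 2
          = (C4 + 1 + (A : ℝ) ^ 2) * (b : ℝ) ^ 3 := by ring
        _ ≤ ((a : ℝ) * b) * ((a : ℝ) * b) := h3
        _ = (a : ℝ) ^ 2 * (b : ℝ) ^ 2 := by ring
        _ ≤ (A : ℝ) ^ 2 * (b : ℝ) ^ 2 := by
            refine mul_le_mul_of_nonneg_right ?_ (by positivity)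
            exact pow_le_pow_left₀ ha0 hlt' 2
    have h6 : (C4 + 1 + (A : ℝ) ^ 2) * b ≤ (A : ℝ) ^ 2 :=
      le_of_mul_le_mul_right h5 (by positivity)
    have h7 : C4 + 1 + (A : ℝ) ^ 2 ≤ (C4 + 1 + (A : ℝ) ^ 2) * b :=
      le_mul_of_one_le_right (by positivity) hbR
    linarith
  obtain ⟨L, hL⟩ : ∃ L : ℝ, L = 1 + Real.log a := ⟨_, rfl⟩
  have hL1 : 1 ≤ L := by
    have := Real.log_natCast_nonneg a
    linarith
  have hL0 : 0 < L := by linarith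
  -- `b` and `D_2` are small
  by_contra hcon
  have hbP : (b : ℝ) < (CP * L ^ cP) * a := by
    by_contra h
    refine hcon (hP a b ?_ n lam)
    rw [← hL]
    have := not_lt.1 h
    calc CP * a * L ^ cP = (CP * L ^ cP) * a := by ring
      _ ≤ b := this
  have hDQ : (dn lam 2 : ℝ) < (CN * L ^ cN) * a := by
    by_contra h
    refine hcon (hN a b hab n lam ?_)
    rw [← hL]
    exact not_lt.1 h
  have ha1 : (1 : ℝ) ≤ a := by
    have h3 : 0 < a := by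
      rcases Nat.eq_zero_or_pos a with h | h
      · rw [h, Nat.cast_zero, mul_zero] at hbP
        linarith
      · exact h
    exact_mod_cast h3
  obtain ⟨Λ, hΛ⟩ : ∃ Λ : ℝ, Λ = B * L ^ (cP + cN) := ⟨_, rfl⟩
  have hΛ1 : 1 ≤ Λ := by
    rw [hΛ]
    exact one_le_mul_of_one_le_of_one_le hB1 (one_le_pow₀ hL1)
  have hPΛ : CP * L ^ cP ≤ Λ := by
    rw [hΛ]
    refine mul_le_mul (by linarith) (pow_le_pow_right₀ hL1 (by omega)) (by positivity) (by positivity)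
  have hQΛ : CN * L ^ cN ≤ Λ := by
    rw [hΛ]
    refine mul_le_mul (by linarith) (pow_le_pow_right₀ hL1 (by omega)) (by positivity) (by positivity)
  have hbig : C4 * Λ ^ (c4 + 2) ≤ a := by
    have h := hA a hAa
    rw [← hL] at h
    refine le_trans (le_of_eq ?_) h
    rw [hΛ, mul_pow, ← pow_mul]
    ring
  have hdn : (dn lam 1 : ℝ) = (ex lam 1 : ℝ) + (dn lam 2 : ℝ) := by
    exact_mod_cast dn_succ lam 1
  rw [hdn] at hD
  obtain ⟨k, rfl⟩ := Nat.exists_eq_add_of_le' hn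
  have e1 : (ex lam 1 : ℝ) = (lam 1 : ℝ) := by
    rw [exlt lam (by omega : 1 < k + 3)]
    rfl
  have e2 : (dn2 lam : ℝ) = (dn lam 2 : ℝ) := by
    rw [dn2_eq]
  obtain ⟨g1, g2, g3, g4, g5⟩ := nums c4 ha1 habR (Nat.cast_nonneg (ex lam 1))
    (Nat.cast_nonneg (dn lam 2)) hDQ hbP hC4 (by
      have : (0 : ℝ) ≤ (A : ℝ) ^ 2 := by positivity
      linarith) hΛ1 hQΛ hPΛ hbig hD
  rw [e1] at g3 g4
  exact hcon (h4 a b k lam Λ hanti hsum hΛ1 g1 hab g2 g3 (by rw [e2]; exact g4)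
    (by rw [e2]; exact g5))

end Vale.Agent.P181.H382.H694
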