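import Vale.Agent.P181.H382.H242.DefsU
import Vale.Agent.P181.H382.H694.Rho
import Vale.Agent.P181.RH.UDefs

set_option autoImplicit false

/-!
# P181, LSU [U5]: `TwoLongU → NearA → RhoU`
-/

namespace Vale.Agent.P181.H382.H694.U

open Vale.Agent.P181
open Vale.Agent.P181.T4 (ex)
open Vale.Agent.P181.H280 (plethMult)
open Vale.Agent.P181.PL (dn exlt exge exfin exanti dn_succ)
open Vale.Agent.P181.TL (dn2)
open Vale.Agent.P181.H382.H242

/-- `G log (2 + M) ≤ 3 M / K` if `K ^ 2 G (1 + log G) ≤ M`. -/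
lemma keyG {K G M : ℝ} (hG : 1 ≤ G) (hK : 1 ≤ K) (hM : 2 ≤ M)
    (h : K ^ 2 * G * (1 + Real.log G) ≤ M) : K * (G * Real.log (2 + M)) ≤ 3 * M := by
  have hG0 : 0 < G := by linarith
  have hM0 : 0 < M := by linarith
  have hlG : 0 ≤ Real.log G := Real.log_nonneg hG
  obtain ⟨x, hx⟩ : ∃ x, x = M / G := ⟨_, rfl⟩
  have hxG : x * G = M := by
    rw [hx]
    field_simp
  have hx0 : 0 < x := by
    rw [hx]
    positivity
  have hxK : K ^ 2 ≤ x := by
    have h1 : K ^ 2 * G ≤ x * G := by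
      rw [hxG]
      refine le_trans ?_ h
      exact le_mul_of_one_le_right (by positivity) (by linarith)
    exact le_of_mul_le_mul_right h1 hG0
  have hs : K ≤ Real.sqrt x := Real.le_sqrt_of_sq_le hxK
  have hss : Real.sqrt x * Real.sqrt x = x := Real.mul_self_sqrt hx0.le
  have hs0 : 0 < Real.sqrt x := by linarith
  have hl : Real.log x ≤ 2 * Real.sqrt x := by
    have h1 := Real.log_le_sub_one_of_pos hs0
    rw [Real.log_sqrt hx0.le] at h1
    linarith
  have h2 : K * Real.log x ≤ 2 * x := by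
    calc K * Real.log x ≤ K * (2 * Real.sqrt x) := mul_le_mul_of_nonneg_left hl (by linarith)
      _ = 2 * (K * Real.sqrt x) := by ring
      _ ≤ 2 * (Real.sqrt x * Real.sqrt x) := by
          have := mul_le_mul_of_nonneg_right hs hs0.le
          linarith
      _ = 2 * x := by rw [hss]
  have h3 : Real.log (2 + M) ≤ 1 + Real.log x + Real.log G := by
    have h4 : Real.log (2 + M) ≤ Real.log (2 * M) :=
      Real.log_le_log (by linarith) (by linarith)
    rw [Real.log_mul (by norm_num) hM0.ne', ← hxG, Real.log_mul hx0.ne' hG0.ne'] at h4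
    have h5 := Real.log_two_lt_d9
    rw [hxG] at h4
    linarith
  have h6 : K * (G * (1 + Real.log G)) ≤ M := by
    refine le_trans ?_ h
    have h7 : 0 ≤ G * (1 + Real.log G) := by positivity
    have h8 : K ≤ K ^ 2 := by nlinarith
    calc K * (G * (1 + Real.log G)) ≤ K ^ 2 * (G * (1 + Real.log G)) :=
          mul_le_mul_of_nonneg_right h8 h7
      _ = K ^ 2 * G * (1 + Real.log G) := by ring
  calc K * (G * Real.log (2 + M)) ≤ K * (G * (1 + Real.log x + Real.log G)) :=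
        mul_le_mul_of_nonneg_left (mul_le_mul_of_nonneg_left h3 hG0.le) (by linarith)
    _ = K * (G * (1 + Real.log G)) + (K * Real.log x) * G := by ring
    _ ≤ M + 2 * x * G := add_le_add h6 (mul_le_mul_of_nonneg_right h2 hG0.le)
    _ = 3 * M := by rw [mul_assoc, hxG]; ring

/-- the numbers -/
lemma nums {a b w D G M E K C1 : ℝ} (ha : 0 < a) (hab : a ≤ b) (hG : 1 ≤ G) (hC1 : 1 ≤ C1)
    (hK : C1 ≤ K ^ 2) (hGM : K ^ 2 * G ≤ M) (hE : 45 ≤ E) (hME : M ≤ 10 * E) (hEa : E ^ 10 = a)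
    (hD0 : 0 ≤ D) (hD : D < E * a) (hw : b ^ 3 ≤ w * D) :
    w ≤ 2 * (w - D) ∧ C1 * b * G ≤ w - D ∧ C1 * b * G ^ 2 * D ≤ a * (w - D) := by
  have hb : 0 < b := by linarith
  have hE0 : 0 < E := by linarith
  have hw0 : 0 < w := by
    by_contra hcon
    have h1 : w * D ≤ 0 := mul_nonpos_of_nonpos_of_nonneg (not_lt.1 hcon) hD0
    have h2 : 0 < b ^ 3 := by positivity
    linarith
  have h1 : b * E ^ 9 ≤ w := by
    have h2 : (b * E ^ 9) * (E * a) ≤ w * (E * a) := by
      calc (b * E ^ 9) * (E * a) = b * E ^ 10 * a := by ring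
        _ = b * a ^ 2 := by rw [hEa]; ring
        _ ≤ b * b ^ 2 := mul_le_mul_of_nonneg_left (pow_le_pow_left₀ ha.le hab 2) hb.le
        _ = b ^ 3 := by ring
        _ ≤ w * D := hw
        _ ≤ w * (E * a) := mul_le_mul_of_nonneg_left hD.le hw0.le
    exact le_of_mul_le_mul_right h2 (by positivity)
  have e8 : 1000 ≤ E ^ 6 := by
    calc (1000 : ℝ) ≤ 45 ^ 6 := by norm_num
      _ ≤ E ^ 6 := pow_le_pow_left₀ (by norm_num) hE 6
  have hbE : b * (1000 * E ^ 3) ≤ w := by
    refine le_trans ?_ h1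
    refine mul_le_mul_of_nonneg_left ?_ hb.le
    calc 1000 * E ^ 3 ≤ E ^ 6 * E ^ 3 := mul_le_mul_of_nonneg_right e8 (by positivity)
      _ = E ^ 9 := by ring
  have hE3 : E ≤ E ^ 3 := by
    calc E = E * 1 := by ring
      _ ≤ E * E ^ 2 := mul_le_mul_of_nonneg_left (by nlinarith) hE0.le
      _ = E ^ 3 := by ring
  have hbE1 : b * (1000 * E) ≤ w := by
    refine le_trans (mul_le_mul_of_nonneg_left ?_ hb.le) hbE
    linarith
  have hDw : 2 * D ≤ w := by
    have h2 : E * a ≤ b * E := by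
      rw [mul_comm]
      exact mul_le_mul_of_nonneg_right hab hE0.le
    have h3 : 0 ≤ b * E := by positivity
    linarith
  refine ⟨by linarith, ?_, ?_⟩
  · have h2 : C1 * G ≤ 10 * E := by
      calc C1 * G ≤ K ^ 2 * G := mul_le_mul_of_nonneg_right hK (by linarith)
        _ ≤ M := hGM
        _ ≤ 10 * E := hME
    have h3 : C1 * b * G ≤ b * (10 * E) := by
      calc C1 * b * G = b * (C1 * G) := by ring
        _ ≤ b * (10 * E) := mul_le_mul_of_nonneg_left h2 hb.le
    have h4 : 0 ≤ b * E := by positivity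
    linarith
  · have hM0 : 0 ≤ M := by
      refine le_trans ?_ hGM
      positivity
    have hGM' : G ≤ M := by
      refine le_trans ?_ hGM
      exact le_mul_of_one_le_left (by linarith) (by linarith)
    have h2 : C1 * G ^ 2 ≤ 100 * E ^ 2 := by
      calc C1 * G ^ 2 = (C1 * G) * G := by ring
        _ ≤ M * M := by
            refine mul_le_mul ?_ hGM' (by linarith) hM0
            exact (mul_le_mul_of_nonneg_right hK (by linarith)).trans hGM
        _ ≤ (10 * E) * (10 * E) := mul_le_mul hME hME hM0 (by positivity)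
        _ = 100 * E ^ 2 := by ring
    have h3 : C1 * b * G ^ 2 * D ≤ a * (b * (100 * E ^ 3)) := by
      calc C1 * b * G ^ 2 * D = (C1 * G ^ 2) * (b * D) := by ring
        _ ≤ (100 * E ^ 2) * (b * (E * a)) := by
            refine mul_le_mul h2 ?_ (by positivity) (by positivity)
            exact mul_le_mul_of_nonneg_left hD.le hb.le
        _ = a * (b * (100 * E ^ 3)) := by ring
    refine h3.trans (mul_le_mul_of_nonneg_left ?_ ha.le)
    have h4 : 0 ≤ b * E ^ 3 := by positivity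
    linarith

/-- **[U5]** -/
theorem rhoU_of (h4 : TwoLongU) (hN : RH.NearA) : RhoU := by
  obtain ⟨C1, hC1, h4⟩ := h4
  obtain ⟨CA, hCA, hN⟩ := hN
  obtain ⟨K, hKe⟩ : ∃ K, K = 30 * CA + C1 + 30 := ⟨_, rfl⟩
  have hK1 : 30 ≤ K := by linarith
  have hKK : K ≤ K ^ 2 := by nlinarith
  have hK900 : 900 ≤ K ^ 2 := by nlinarith
  refine ⟨K ^ 2, by positivity, fun a b hab n lam hD => ?_⟩
  by_cases hz : plethMult a b n lam = 0
  · rw [hz]
    exact Nat.zero_le _
  obtain ⟨hanti, hsum, -⟩ := H530.zero_stmt a b n lam hz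
  have ha0 : (0 : ℝ) ≤ a := Nat.cast_nonneg a
  have habR : (a : ℝ) < b := by exact_mod_cast hab
  have hb0 : (0 : ℝ) < b := by linarith
  have hg : 0 < (b : ℝ) - a := by linarith
  obtain ⟨G, hG⟩ : ∃ G : ℝ, G = (b : ℝ) / (b - a) := ⟨_, rfl⟩
  have hG1 : 1 ≤ G := by
    rw [hG, le_div_iff₀ hg]
    linarith
  have hGg : G * ((b : ℝ) - a) = b := by
    rw [hG]
    field_simp
  have hlG : 0 ≤ Real.log G := Real.log_nonneg hG1
  obtain ⟨w, hw⟩ : ∃ w : ℝ, w = (dn lam 1 : ℝ) := ⟨_, rfl⟩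
  obtain ⟨D, hDd⟩ : ∃ D : ℝ, D = (dn lam 2 : ℝ) := ⟨_, rfl⟩
  have hD0 : 0 ≤ D := by
    rw [hDd]
    exact Nat.cast_nonneg _
  have hw0 : 0 ≤ w := by
    rw [hw]
    exact Nat.cast_nonneg _
  rw [← hG, ← hw, ← hDd] at hD
  obtain ⟨ρ, hρ⟩ : ∃ ρ : ℝ, ρ = w * D / (b : ℝ) ^ 3 := ⟨_, rfl⟩
  rw [← hρ] at hD
  have hρ0 : 0 ≤ ρ := by
    rw [hρ]
    positivity
  have h1 : K ^ 2 * G * (1 + Real.log G) ≤ Real.log ρ := by
    have h2 : (K ^ 2 * G * (1 + Real.log G)) * ((b : ℝ) - a) ≤ Real.log ρ * ((b : ℝ) - a) := by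
      calc (K ^ 2 * G * (1 + Real.log G)) * ((b : ℝ) - a)
          = K ^ 2 * (G * ((b : ℝ) - a)) * (1 + Real.log G) := by ring
        _ = K ^ 2 * b * (1 + Real.log G) := by rw [hGg]
        _ ≤ ((b : ℝ) - a) * Real.log ρ := hD
        _ = Real.log ρ * ((b : ℝ) - a) := mul_comm _ _
    exact le_of_mul_le_mul_right h2 hg
  have hKG : K ^ 2 * G ≤ K ^ 2 * G * (1 + Real.log G) :=
    le_mul_of_one_le_right (by positivity) (by linarith)
  have hK2 : K ^ 2 ≤ K ^ 2 * G := le_mul_of_one_le_right (by positivity) hG1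
  have hρ1 : 1 < ρ := by
    by_contra hcon
    have h2 := Real.log_nonpos hρ0 (not_lt.1 hcon)
    linarith
  have hb3 : (0 : ℝ) < (b : ℝ) ^ 3 := by positivity
  have hwD : (b : ℝ) ^ 3 ≤ w * D := by
    rw [hρ, lt_div_iff₀ hb3] at hρ1
    linarith
  -- the sums
  have hwab : w ≤ a * b := by
    have h := dn_le_sum lam 1
    rw [hsum] at h
    rw [hw]
    exact_mod_cast h
  have hDab : D ≤ a * b := by
    have h := dn_le_sum lam 2
    rw [hsum] at h
    rw [hDd]
    exact_mod_cast h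
  have ha : (0 : ℝ) < a := by
    rcases ha0.lt_or_eq with h | h
    · exact h
    · rw [← h, zero_mul] at hwab
      have h2 : w * D ≤ 0 := mul_nonpos_of_nonpos_of_nonneg hwab hD0
      linarith
  have hρa : ρ ≤ a := by
    rw [hρ, div_le_iff₀ hb3]
    calc w * D ≤ ((a : ℝ) * b) * ((a : ℝ) * b) := mul_le_mul hwab hDab hD0 (by positivity)
      _ = (a : ℝ) * (a * (b : ℝ) ^ 2) := by ring
      _ ≤ (a : ℝ) * (b * (b : ℝ) ^ 2) := by
          refine mul_le_mul_of_nonneg_left ?_ ha.le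
          exact mul_le_mul_of_nonneg_right habR.le (by positivity)
      _ = (a : ℝ) * (b : ℝ) ^ 3 := by ring
  obtain ⟨M, hM⟩ : ∃ M : ℝ, M = Real.log a := ⟨_, rfl⟩
  have hρM : Real.log ρ ≤ M := by
    rw [hM]
    exact Real.log_le_log (by linarith) hρa
  have hM900 : 900 ≤ M := by linarith
  have heM : Real.exp M = a := by
    rw [hM]
    exact Real.exp_log ha
  -- the case of `NearA`
  by_contra hcon
  have h2 : Real.log (D / a) < CA * (G * Real.log (2 + M)) := by
    by_contra h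
    refine hcon (hN a b hab.le n lam ?_)
    rw [← hDd, ← hM]
    have h3 := mul_le_mul_of_nonneg_right (not_lt.1 h) hg.le
    calc CA * b * Real.log (2 + M) = CA * (G * ((b : ℝ) - a)) * Real.log (2 + M) := by rw [hGg]
      _ = (CA * (G * Real.log (2 + M))) * ((b : ℝ) - a) := by ring
      _ ≤ Real.log (D / a) * ((b : ℝ) - a) := h3
      _ = ((b : ℝ) - a) * Real.log (D / a) := mul_comm _ _
  have h3 := keyG hG1 (by linarith) (by linarith) (h1.trans hρM)
  have h5 : 0 ≤ G * Real.log (2 + M) :=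
    mul_nonneg (by linarith) (Real.log_nonneg (by linarith))
  have h6 : 30 * (CA * (G * Real.log (2 + M))) ≤ 3 * M := by
    refine le_trans ?_ h3
    have h7 : 30 * CA ≤ K := by linarith
    calc 30 * (CA * (G * Real.log (2 + M))) = (30 * CA) * (G * Real.log (2 + M)) := by ring
      _ ≤ K * (G * Real.log (2 + M)) := mul_le_mul_of_nonneg_right h7 h5
  have h8 : Real.log (D / a) < M / 10 := by linarith
  have hDpos : 0 < D := by
    rcases hD0.lt_or_eq with h | h
    · exact h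
    · rw [← h, mul_zero] at hwD
      linarith
  obtain ⟨E, hE⟩ : ∃ E : ℝ, E = Real.exp (M / 10) := ⟨_, rfl⟩
  have hDE : D < E * a := by
    have h9 : D / a < E := by
      rw [hE]
      exact (Real.log_lt_iff_lt_exp (by positivity)).1 h8
    rwa [div_lt_iff₀ ha] at h9
  have hE1 : M / 10 + 1 ≤ E := by
    rw [hE]
    exact Real.add_one_le_exp _
  have hE10 : E ^ 10 = a := by
    rw [hE, ← Real.exp_nat_mul, ← heM]
    congr 1
    push_cast
    ring
  obtain ⟨g1, g2, g3⟩ := nums ha habR.le hG1 hC1 (by linarith) (hKG.trans (h1.trans hρM))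
    (by linarith) (by linarith) hE10 hD0 hDE hwD
  -- the rows
  have hn : 3 ≤ n := by
    by_contra hn
    have h9 := dn_small lam (by omega)
    rw [h9, Nat.cast_zero] at hDd
    linarith
  obtain ⟨k, rfl⟩ := Nat.exists_eq_add_of_le' hn
  have e1 : w - D = (lam 1 : ℝ) := by
    have h9 : w = (ex lam 1 : ℝ) + D := by
      rw [hw, hDd]
      exact_mod_cast dn_succ lam 1
    rw [h9, exlt lam (by omega : 1 < k + 3)]
    have h10 : (⟨1, by omega⟩ : Fin (k + 3)) = 1 := rfl
    rw [h10]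
    ring
  have e2 : (dn2 lam : ℝ) = D := by
    rw [dn2_eq, hDd]
  rw [e1] at g1 g2 g3
  refine hcon (h4 a b k lam (hanti (Fin.zero_le _)) hsum hab ?_ ?_ ?_ ?_)
  · have := Real.add_one_le_exp M
    rw [heM] at this
    linarith
  · rw [← hG]
    exact g2
  · rw [← hG, e2]
    exact g3
  · rw [← hG, e2]
    have hl0 : 0 < (lam 1 : ℝ) := by
      have : 0 < w := by
        rcases hw0.lt_or_eq with h | h
        · exact h
        · rw [← h, zero_mul] at hwD
          linarith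
      linarith
    have h9 : ρ / 2 ≤ (lam 1 : ℝ) * D / (b : ℝ) ^ 3 := by
      rw [hρ, div_div, div_le_div_iff₀ (by positivity) hb3]
      have h10 : w * D ≤ 2 * (lam 1 : ℝ) * D := mul_le_mul_of_nonneg_right g1 hD0
      calc w * D * (b : ℝ) ^ 3 ≤ (2 * (lam 1 : ℝ) * D) * (b : ℝ) ^ 3 :=
            mul_le_mul_of_nonneg_right h10 hb3.le
        _ = (lam 1 : ℝ) * D * ((b : ℝ) ^ 3 * 2) := by ring
    have h10 : Real.log ρ - 1 ≤ Real.log ((lam 1 : ℝ) * D / (b : ℝ) ^ 3) := by
      have h11 := Real.log_le_log (by linarith : 0 < ρ / 2) h9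
      rw [Real.log_div (by linarith) (by norm_num)] at h11
      have := Real.log_two_lt_d9
      linarith
    have h12 : C1 * G * (1 + Real.log G) ≤ Real.log ((lam 1 : ℝ) * D / (b : ℝ) ^ 3) := by
      refine le_trans ?_ h10
      have h13 : 1 ≤ G * (1 + Real.log G) :=
        one_le_mul_of_one_le_of_one_le hG1 (by linarith)
      have h14 : (C1 + 1) * (G * (1 + Real.log G)) ≤ K ^ 2 * (G * (1 + Real.log G)) :=
        mul_le_mul_of_nonneg_right (by linarith) (by linarith)
      have h15 : K ^ 2 * (G * (1 + Real.log G)) ≤ Real.log ρ := by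
        rw [← mul_assoc]
        exact h1
      linarith
    calc C1 * b * (1 + Real.log G) = C1 * (G * ((b : ℝ) - a)) * (1 + Real.log G) := by rw [hGg]
      _ = (C1 * G * (1 + Real.log G)) * ((b : ℝ) - a) := by ring
      _ ≤ Real.log ((lam 1 : ℝ) * D / (b : ℝ) ^ 3) * ((b : ℝ) - a) :=
          mul_le_mul_of_nonneg_right h12 hg.le
      _ = ((b : ℝ) - a) * Real.log ((lam 1 : ℝ) * D / (b : ℝ) ^ 3) := mul_comm _ _

end Vale.Agent.P181.H382.H694.U
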