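import Vale.Agent.P181.H382.H382.UDefs
import Vale.Agent.P181.H382.H694.RhoU

set_option autoImplicit false

/-!
# P181, LSU: `U.TwoLongSU → NearA → U.RhoU`
-/

namespace Vale.Agent.P181.H382.H694.V

open Vale.Agent.P181
open Vale.Agent.P181.T4 (ex)
open Vale.Agent.P181.H280 (plethMult)
open Vale.Agent.P181.PL (dn exlt exge exfin exanti dn_succ)
open Vale.Agent.P181.TL (dn2)
open Vale.Agent.P181.H382.U (TwoLongSU)

/-- the numbers -/
lemma nums {a b w D E C1 : ℝ} (N c : ℕ) (hN : 2 * c + 4 ≤ N) (ha : 0 < a) (hab : a ≤ b)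
    (hE : 2 ≤ E) (hC1E : C1 ≤ E) (hC1 : 1 ≤ C1) (hEa : E ^ N = a) (hD0 : 0 ≤ D)
    (hD : D < E * a) (hwab : w ≤ a * b) (hw : b ^ 3 ≤ w * D) :
    w ≤ 2 * (w - D) ∧ b ≤ 2 * E * a ∧ a ^ 2 ≤ 2 * E * (w - D) ∧ C1 * (2 * E) ^ c ≤ a ∧
      C1 * (2 * E) ^ c * D ≤ a ^ 2 := by
  have hb : 0 < b := by linarith
  have hE0 : 0 < E := by linarith
  have hE1 : 1 ≤ E := by linarith
  have h0 : E ^ (2 * c + 2) ≤ a := by
    rw [← hEa]
    exact pow_le_pow_right₀ hE1 (by omega)
  have h3 : E ^ 3 ≤ a := by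
    rw [← hEa]
    exact pow_le_pow_right₀ hE1 (by omega)
  have hcc : C1 * (2 * E) ^ c ≤ E ^ (2 * c + 1) := by
    have h1 : (2 * E) ^ c ≤ (E * E) ^ c :=
      pow_le_pow_left₀ (by positivity) (mul_le_mul_of_nonneg_right hE hE0.le) c
    calc C1 * (2 * E) ^ c ≤ E * (E * E) ^ c := mul_le_mul hC1E h1 (by positivity) hE0.le
      _ = E ^ (2 * c + 1) := by
          rw [← pow_two, ← pow_mul]
          ring
  have hb3 : 0 < b ^ 3 := by positivity
  have hw0 : 0 < w := by
    by_contra hcon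
    have h1 : w * D ≤ 0 := mul_nonpos_of_nonpos_of_nonneg (not_lt.1 hcon) hD0
    linarith
  -- `b ≤ a E`
  have hbE : b ≤ E * a := by
    by_contra hcon
    have hcon' := not_le.1 hcon
    have h1 : b ^ 2 * b ≤ (a ^ 2 * E) * b := by
      calc b ^ 2 * b = b ^ 3 := by ring
        _ ≤ w * D := hw
        _ ≤ (a * b) * (E * a) := mul_le_mul hwab hD.le hD0 (by positivity)
        _ = (a ^ 2 * E) * b := by ring
    have h2 : b ^ 2 ≤ a ^ 2 * E := le_of_mul_le_mul_right h1 hb
    have h4 : (E * a) ^ 2 < b ^ 2 := pow_lt_pow_left₀ hcon' (by positivity) (by norm_num)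
    have h5 : a ^ 2 * E ≤ (E * a) ^ 2 := by
      calc a ^ 2 * E = a ^ 2 * (E * 1) := by ring
        _ ≤ a ^ 2 * (E * E) :=
            mul_le_mul_of_nonneg_left (mul_le_mul_of_nonneg_left hE1 hE0.le) (by positivity)
        _ = (E * a) ^ 2 := by ring
    linarith
  -- `w ≥ a b / E`
  have hwE : a * b ≤ w * E := by
    have h1 : (a * b) * a ≤ (w * E) * a := by
      calc (a * b) * a = b * a ^ 2 := by ring
        _ ≤ b * b ^ 2 := mul_le_mul_of_nonneg_left (pow_le_pow_left₀ ha.le hab 2) hb.le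
        _ = b ^ 3 := by ring
        _ ≤ w * D := hw
        _ ≤ w * (E * a) := mul_le_mul_of_nonneg_left hD.le hw0.le
        _ = (w * E) * a := by ring
    exact le_of_mul_le_mul_right h1 ha
  have haab : a ^ 2 ≤ a * b := by
    rw [pow_two]
    exact mul_le_mul_of_nonneg_left hab ha.le
  have hw2 : 2 * D ≤ w := by
    have h1 : (a * E ^ 2) * E ≤ w * E := by
      calc (a * E ^ 2) * E = a * E ^ 3 := by ring
        _ ≤ a * a := mul_le_mul_of_nonneg_left h3 ha.le
        _ = a ^ 2 := by ring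
        _ ≤ a * b := haab
        _ ≤ w * E := hwE
    have h2 : a * E ^ 2 ≤ w := le_of_mul_le_mul_right h1 hE0
    have h4 : 2 * (E * a) ≤ a * E ^ 2 := by
      calc 2 * (E * a) ≤ E * (E * a) := mul_le_mul_of_nonneg_right hE (by positivity)
        _ = a * E ^ 2 := by ring
    linarith
  refine ⟨by linarith, ?_, ?_, ?_, ?_⟩
  · have h1 : 0 ≤ E * a := by positivity
    calc b ≤ E * a := hbE
      _ ≤ 2 * E * a := by linarith
  · have h1 : w * E ≤ 2 * (w - D) * E := mul_le_mul_of_nonneg_right (by linarith) hE0.le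
    calc a ^ 2 ≤ a * b := haab
      _ ≤ w * E := hwE
      _ ≤ 2 * (w - D) * E := h1
      _ = 2 * E * (w - D) := by ring
  · refine hcc.trans (le_trans ?_ h0)
    exact pow_le_pow_right₀ hE1 (by omega)
  · calc C1 * (2 * E) ^ c * D ≤ E ^ (2 * c + 1) * (E * a) :=
          mul_le_mul hcc hD.le hD0 (by positivity)
      _ = E ^ (2 * c + 2) * a := by ring
      _ ≤ a * a := mul_le_mul_of_nonneg_right h0 ha.le
      _ = a ^ 2 := by ring

/-- **[U5]** from helper820's numbers -/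
theorem rhoU_of (h4 : TwoLongSU) (hN : RH.NearA) : U.RhoU := by
  obtain ⟨C1, c, hC1, h4⟩ := h4
  obtain ⟨CA, hCA, hN⟩ := hN
  obtain ⟨N, hNe⟩ : ∃ N : ℕ, N = 2 * c + 4 := ⟨_, rfl⟩
  have hN4 : (4 : ℝ) ≤ N := by
    have : 4 ≤ N := by omega
    exact_mod_cast this
  have hN0 : (0 : ℝ) < N := by linarith
  obtain ⟨K, hKe⟩ : ∃ K : ℝ, K = 3 * N * CA + 2 * N * C1 + 30 := ⟨_, rfl⟩
  have hNC : (N : ℝ) ≤ N * C1 := le_mul_of_one_le_right hN0.le hC1
  have hNCA : 0 ≤ 3 * (N : ℝ) * CA := by positivity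
  have hCN : C1 ≤ N * C1 := le_mul_of_one_le_left (by linarith) (by linarith)
  have hK1 : 30 ≤ K := by linarith
  have hKK : K ≤ K ^ 2 := by nlinarith
  have hK900 : 900 ≤ K ^ 2 := by nlinarith
  refine ⟨2 * K ^ 2, by positivity, fun a b hab n lam hD => ?_⟩
  by_cases hz : plethMult a b n lam = 0
  · rw [hz]
    exact Nat.zero_le _
  obtain ⟨hanti, hsum, -⟩ := H530.zero_stmt a b n lam hz
  have ha0 : (0 : ℝ) ≤ a := Nat.cast_nonneg a
  have habR : (a : ℝ) < b := by exact_mod_cast hab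
  have hb0 : (0 : ℝ) < b := by linarith
  have hg : 0 < (b : ℝ) - a := by linarith
  obtain ⟨G, hG⟩ : ∃ G : ℝ, G = (b : ℝ) / (b - a) := ⟨_, rfl⟩
  have hG1 : 1 ≤ G := by
    rw [hG, le_div_iff₀ hg]
    linarith
  have hGg : G * ((b : ℝ) - a) = b := by
    rw [hG]
    field_simp
  have hlG : 0 ≤ Real.log G := Real.log_nonneg hG1
  have e2G : Real.log (2 * b / ((b : ℝ) - a)) = Real.log 2 + Real.log G := by
    rw [mul_div_assoc, ← hG, Real.log_mul (by norm_num) (by linarith)]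
  have hl2 := Real.log_two_gt_d9
  obtain ⟨w, hw⟩ : ∃ w : ℝ, w = (dn lam 1 : ℝ) := ⟨_, rfl⟩
  obtain ⟨D, hDd⟩ : ∃ D : ℝ, D = (dn lam 2 : ℝ) := ⟨_, rfl⟩
  have hD0 : 0 ≤ D := by
    rw [hDd]
    exact Nat.cast_nonneg _
  have hw0 : 0 ≤ w := by
    rw [hw]
    exact Nat.cast_nonneg _
  rw [e2G, ← hw, ← hDd] at hD
  obtain ⟨ρ, hρ⟩ : ∃ ρ : ℝ, ρ = w * D / (b : ℝ) ^ 3 := ⟨_, rfl⟩
  rw [← hρ] at hD
  have hρ0 : 0 ≤ ρ := by
    rw [hρ]
    positivity
  have h1 : 2 * K ^ 2 * (G * (Real.log 2 + Real.log G)) ≤ Real.log ρ := by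
    have h2 : (2 * K ^ 2 * (G * (Real.log 2 + Real.log G))) * ((b : ℝ) - a) ≤
        Real.log ρ * ((b : ℝ) - a) := by
      calc (2 * K ^ 2 * (G * (Real.log 2 + Real.log G))) * ((b : ℝ) - a)
          = 2 * K ^ 2 * (G * ((b : ℝ) - a)) * (Real.log 2 + Real.log G) := by ring
        _ = 2 * K ^ 2 * b * (Real.log 2 + Real.log G) := by rw [hGg]
        _ ≤ ((b : ℝ) - a) * Real.log ρ := hD
        _ = Real.log ρ * ((b : ℝ) - a) := mul_comm _ _
    exact le_of_mul_le_mul_right h2 hg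
  have h1' : K ^ 2 * G * (1 + Real.log G) ≤ Real.log ρ := by
    refine le_trans ?_ h1
    have h2 : 1 + Real.log G ≤ 2 * (Real.log 2 + Real.log G) := by linarith
    calc K ^ 2 * G * (1 + Real.log G) ≤ K ^ 2 * G * (2 * (Real.log 2 + Real.log G)) :=
          mul_le_mul_of_nonneg_left h2 (by positivity)
      _ = 2 * K ^ 2 * (G * (Real.log 2 + Real.log G)) := by ring
  have hKG : K ^ 2 * G ≤ K ^ 2 * G * (1 + Real.log G) :=
    le_mul_of_one_le_right (by positivity) (by linarith)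
  have hK2 : K ^ 2 ≤ K ^ 2 * G := le_mul_of_one_le_right (by positivity) hG1
  have hρ1 : 1 < ρ := by
    by_contra hcon
    have h2 := Real.log_nonpos hρ0 (not_lt.1 hcon)
    linarith
  have hb3 : (0 : ℝ) < (b : ℝ) ^ 3 := by positivity
  have hwD : (b : ℝ) ^ 3 ≤ w * D := by
    rw [hρ, lt_div_iff₀ hb3] at hρ1
    linarith
  -- the sums
  have hwab : w ≤ a * b := by
    have h := dn_le_sum lam 1
    rw [hsum] at h
    rw [hw]
    exact_mod_cast h
  have hDab : D ≤ a * b := by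
    have h := dn_le_sum lam 2
    rw [hsum] at h
    rw [hDd]
    exact_mod_cast h
  have ha : (0 : ℝ) < a := by
    rcases ha0.lt_or_eq with h | h
    · exact h
    · rw [← h, zero_mul] at hwab
      have h2 : w * D ≤ 0 := mul_nonpos_of_nonpos_of_nonneg hwab hD0
      linarith
  have hρa : ρ ≤ a := by
    rw [hρ, div_le_iff₀ hb3]
    calc w * D ≤ ((a : ℝ) * b) * ((a : ℝ) * b) := mul_le_mul hwab hDab hD0 (by positivity)
      _ = (a : ℝ) * (a * (b : ℝ) ^ 2) := by ring
      _ ≤ (a : ℝ) * (b * (b : ℝ) ^ 2) := by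
          refine mul_le_mul_of_nonneg_left ?_ ha.le
          exact mul_le_mul_of_nonneg_right habR.le (by positivity)
      _ = (a : ℝ) * (b : ℝ) ^ 3 := by ring
  obtain ⟨M, hM⟩ : ∃ M : ℝ, M = Real.log a := ⟨_, rfl⟩
  have hρM : Real.log ρ ≤ M := by
    rw [hM]
    exact Real.log_le_log (by linarith) hρa
  have hM900 : 900 ≤ M := by linarith
  have heM : Real.exp M = a := by
    rw [hM]
    exact Real.exp_log ha
  -- the case of `NearA`
  by_contra hcon
  have h2 : Real.log (D / a) < CA * (G * Real.log (2 + M)) := by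
    by_contra h
    refine hcon (hN a b hab.le n lam ?_)
    rw [← hDd, ← hM]
    have h3 := mul_le_mul_of_nonneg_right (not_lt.1 h) hg.le
    calc CA * b * Real.log (2 + M) = CA * (G * ((b : ℝ) - a)) * Real.log (2 + M) := by rw [hGg]
      _ = (CA * (G * Real.log (2 + M))) * ((b : ℝ) - a) := by ring
      _ ≤ Real.log (D / a) * ((b : ℝ) - a) := h3
      _ = ((b : ℝ) - a) * Real.log (D / a) := mul_comm _ _
  have h3 := H694.U.keyG hG1 (by linarith) (by linarith) (h1'.trans hρM)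
  have h5 : 0 ≤ G * Real.log (2 + M) :=
    mul_nonneg (by linarith) (Real.log_nonneg (by linarith))
  have h6 : N * (CA * (G * Real.log (2 + M))) ≤ M := by
    have h7 : 3 * N * CA ≤ K := by linarith
    have h8 : (3 * N * CA) * (G * Real.log (2 + M)) ≤ 3 * M :=
      (mul_le_mul_of_nonneg_right h7 h5).trans h3
    have h9 : 3 * (N * (CA * (G * Real.log (2 + M)))) ≤ 3 * M := by
      calc 3 * (N * (CA * (G * Real.log (2 + M)))) = (3 * N * CA) * (G * Real.log (2 + M)) := by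
            ring
        _ ≤ 3 * M := h8
    linarith
  have h8 : Real.log (D / a) < M / N := by
    rw [lt_div_iff₀ hN0]
    calc Real.log (D / a) * N < (CA * (G * Real.log (2 + M))) * N :=
          mul_lt_mul_of_pos_right h2 hN0
      _ = N * (CA * (G * Real.log (2 + M))) := mul_comm _ _
      _ ≤ M := h6
  have hDpos : 0 < D := by
    rcases hD0.lt_or_eq with h | h
    · exact h
    · rw [← h, mul_zero] at hwD
      linarith
  obtain ⟨E, hE⟩ : ∃ E : ℝ, E = Real.exp (M / N) := ⟨_, rfl⟩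
  have hDE : D < E * a := by
    have h9 : D / a < E := by
      rw [hE]
      exact (Real.log_lt_iff_lt_exp (by positivity)).1 h8
    rwa [div_lt_iff₀ ha] at h9
  have hE1 : M / N + 1 ≤ E := by
    rw [hE]
    exact Real.add_one_le_exp _
  have hK2M : K ^ 2 * G ≤ M := hKG.trans (h1'.trans hρM)
  have hGE : G + C1 ≤ E := by
    refine le_trans ?_ hE1
    have h9 : G + C1 ≤ M / N := by
      rw [le_div_iff₀ hN0]
      have h10 : (G + C1) * N ≤ (2 * N * C1) * G := by
        have h11 : C1 * N ≤ (N * C1) * G := by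
          calc C1 * N = N * C1 := mul_comm _ _
            _ ≤ (N * C1) * G := le_mul_of_one_le_right (by positivity) hG1
        have h12 : G * N ≤ (N * C1) * G := by
          calc G * N = N * G := mul_comm _ _
            _ ≤ (N * C1) * G := mul_le_mul_of_nonneg_right hNC (by linarith)
        linarith
      have h13 : (2 * N * C1) * G ≤ K ^ 2 * G :=
        mul_le_mul_of_nonneg_right (by linarith) (by linarith)
      linarith
    linarith
  have hEN : E ^ N = a := by
    rw [hE, ← Real.exp_nat_mul, ← heM]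
    congr 1
    field_simp
  obtain ⟨g1, g2, g3, g4, g5⟩ := nums (b := b) N c (by omega) ha habR.le (by linarith)
    (by linarith) hC1 hEN hD0 hDE hwab hwD
  -- the rows
  have hn : 3 ≤ n := by
    by_contra hn
    have h9 := dn_small lam (by omega)
    rw [h9, Nat.cast_zero] at hDd
    linarith
  obtain ⟨k, rfl⟩ := Nat.exists_eq_add_of_le' hn
  have e1 : w - D = (lam 1 : ℝ) := by
    have h9 : w = (ex lam 1 : ℝ) + D := by
      rw [hw, hDd]
      exact_mod_cast dn_succ lam 1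
    rw [h9, exlt lam (by omega : 1 < k + 3)]
    have h10 : (⟨1, by omega⟩ : Fin (k + 3)) = 1 := rfl
    rw [h10]
    ring
  have e2 : (dn2 lam : ℝ) = D := by
    rw [dn2_eq, hDd]
  rw [e1] at g1 g3
  refine hcon (h4 a b k lam (2 * E) hanti hsum hab (by linarith) g4 g2 ?_ g3 ?_ ?_)
  · have h9 : G ≤ 2 * E := by linarith
    calc (b : ℝ) = G * ((b : ℝ) - a) := hGg.symm
      _ ≤ 2 * E * ((b : ℝ) - a) := mul_le_mul_of_nonneg_right h9 hg.le
  · rw [e2]
    exact g5
  · rw [e2G, e2]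
    have hl0 : 0 < (lam 1 : ℝ) := by
      have : 0 < w := by
        rcases hw0.lt_or_eq with h | h
        · exact h
        · rw [← h, zero_mul] at hwD
          linarith
      linarith
    have h9 : ρ / 2 ≤ (lam 1 : ℝ) * D / (b : ℝ) ^ 3 := by
      rw [hρ, div_div, div_le_div_iff₀ (by positivity) hb3]
      have h10 : w * D ≤ 2 * (lam 1 : ℝ) * D := mul_le_mul_of_nonneg_right g1 hD0
      calc w * D * (b : ℝ) ^ 3 ≤ (2 * (lam 1 : ℝ) * D) * (b : ℝ) ^ 3 :=
            mul_le_mul_of_nonneg_right h10 hb3.le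
        _ = (lam 1 : ℝ) * D * ((b : ℝ) ^ 3 * 2) := by ring
    have h10 : Real.log ρ - 1 ≤ Real.log ((lam 1 : ℝ) * D / (b : ℝ) ^ 3) := by
      have h11 := Real.log_le_log (by linarith : 0 < ρ / 2) h9
      rw [Real.log_div (by linarith) (by norm_num)] at h11
      have := Real.log_two_lt_d9
      linarith
    have h12 : C1 * (G * (Real.log 2 + Real.log G)) ≤
        Real.log ((lam 1 : ℝ) * D / (b : ℝ) ^ 3) := by
      refine le_trans ?_ h10
      have h13 : 1 / 2 ≤ G * (Real.log 2 + Real.log G) := by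
        calc (1 / 2 : ℝ) ≤ 1 * (Real.log 2 + Real.log G) := by linarith
          _ ≤ G * (Real.log 2 + Real.log G) :=
              mul_le_mul_of_nonneg_right hG1 (by linarith)
      have h14 : (C1 + 2) * (G * (Real.log 2 + Real.log G)) ≤
          2 * K ^ 2 * (G * (Real.log 2 + Real.log G)) :=
        mul_le_mul_of_nonneg_right (by linarith) (by linarith)
      linarith
    calc C1 * b * (Real.log 2 + Real.log G)
        = C1 * (G * ((b : ℝ) - a)) * (Real.log 2 + Real.log G) := by rw [hGg]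
      _ = (C1 * (G * (Real.log 2 + Real.log G))) * ((b : ℝ) - a) := by ring
      _ ≤ Real.log ((lam 1 : ℝ) * D / (b : ℝ) ^ 3) * ((b : ℝ) - a) :=
          mul_le_mul_of_nonneg_right h12 hg.le
      _ = ((b : ℝ) - a) * Real.log ((lam 1 : ℝ) * D / (b : ℝ) ^ 3) := mul_comm _ _

end Vale.Agent.P181.H382.H694.V
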